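import Vale.Agent.KK.ForestFinal
import Vale.Agent.Lib.P064.helper13.Rooting
import Vale.Agent.Lib.P064.helper19.FreqFamily
import Vale.Agent.Lib.P064.helper32.ConjInj
import Vale.Agent.Lib.P064.helper43.ClassCount

/-!
# Forest hosts: frequency of heavy patterns
-/

namespace Vale.Agent.KK

open SimpleGraph Finset
open Vale.Agent.Lib.P064

/-- The number of copies in `K_n` of the graph of a parent function `p`, times the product of
the factorials of its fibre sizes, is at most `C(n,M) C(n,m) 2^(2M+m) M^M`. -/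
theorem copyCount_fromRel_mul_le {n : ℕ} (p : Fin n → Option (Fin n)) (M m : ℕ)
    (hM : (univ.filter (fun x => p x ≠ none)).card = M)
    (hm : (univ.filter (fun y => p y = none ∧ ∃ x, p x = some y)).card = m) :
    (⊤ : SimpleGraph (Fin n)).copyCount (SimpleGraph.fromRel (fun x y => p x = some y)) *
        ∏ y, ((univ.filter (fun x => p x = some y)).card.factorial)
      ≤ n.choose M * n.choose m * 2 ^ (2 * M + m) * M ^ M := by
  have h1 := copyCount_fromRel_le_ncard_class p
  have h2 := ncard_class_mul_le n M m (∏ y, ((univ.filter (fun x => p x = some y)).card.factorial))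
  rw [hM, hm] at h1
  exact le_trans (Nat.mul_le_mul_right _ h1) h2

/-- A sub-parent-function of a forest host with `M` non-roots and `m` roots having children
has fibre-factorial product at most `(4 e n q)^M (2 e n / m)^m`. -/
theorem freq_core {n : ℕ} {H : SimpleGraph (Fin n)} {q : ℝ} (hq : 0 ≤ q)
    (h : SubgraphsExpected n H q)
    (p : Fin n → Option (Fin n)) (d : Fin n → ℕ)
    (hd : ∀ x y, p x = some y → d x = d y + 1)
    (hp : ∀ x y, p x = some y → H.Adj x y)
    (M m : ℕ) (hM : (univ.filter (fun x => p x ≠ none)).card = M)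
    (hm : (univ.filter (fun y => p y = none ∧ ∃ x, p x = some y)).card = m)
    (hM1 : 1 ≤ M) (hm1 : 1 ≤ m) :
    ((∏ y, ((univ.filter (fun x => p x = some y)).card.factorial) : ℕ) : ℝ) ≤
      (4 * Real.exp 1 * n * q) ^ M * (2 * Real.exp 1 * n / m) ^ m := by
  set U := SimpleGraph.fromRel (fun x y => p x = some y) with hU
  have hUH : U ≤ H := by
    intro x y hxy
    rw [hU, SimpleGraph.fromRel_adj] at hxy
    rcases hxy.2 with h1 | h1
    · exact hp _ _ h1
    · exact (hp _ _ h1).symm
  have he : U.edgeSet.ncard = M := by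
    rw [← hM]
    exact ncard_edgeSet_fromRel_par p d hd
  have h1 := hyp_spanning h U hUH
  rw [he] at h1
  have h2 := copyCount_fromRel_mul_le p M m hM hm
  set Φ := ∏ y, ((univ.filter (fun x => p x = some y)).card.factorial) with hΦ
  set N := (⊤ : SimpleGraph (Fin n)).copyCount U with hN
  have h2' : (N : ℝ) * (Φ : ℝ) ≤
      (n.choose M : ℝ) * (n.choose m : ℝ) * 2 ^ (2 * M + m) * (M : ℝ) ^ M := by
    exact_mod_cast h2
  have hΦ0 : (0 : ℝ) ≤ Φ := Nat.cast_nonneg _
  have hqM : 0 ≤ q ^ M := pow_nonneg hq M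
  have c1 := choose_le_exp_pow n M hM1
  have c2 := choose_le_exp_pow n m hm1
  have hMpos : (0 : ℝ) < M := by exact_mod_cast hM1
  have hmpos : (0 : ℝ) < m := by exact_mod_cast hm1
  calc (Φ : ℝ) = Φ * 1 := (mul_one _).symm
    _ ≤ Φ * (N * q ^ M) := mul_le_mul_of_nonneg_left h1 hΦ0
    _ = (N * Φ) * q ^ M := by ring
    _ ≤ ((n.choose M : ℝ) * (n.choose m : ℝ) * 2 ^ (2 * M + m) * (M : ℝ) ^ M) * q ^ M :=
        mul_le_mul_of_nonneg_right h2' hqM
    _ ≤ ((Real.exp 1 * n / M) ^ M * (Real.exp 1 * n / m) ^ m * 2 ^ (2 * M + m) * (M : ℝ) ^ M) *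
          q ^ M := by
        gcongr
    _ = (4 * Real.exp 1 * n * q) ^ M * (2 * Real.exp 1 * n / m) ^ m := by
        have e1 : (Real.exp 1 * n / M) ^ M * (M : ℝ) ^ M = (Real.exp 1 * n) ^ M := by
          rw [← mul_pow, div_mul_cancel₀ _ hMpos.ne']
        have e2 : (2 : ℝ) ^ (2 * M + m) = 4 ^ M * 2 ^ m := by
          rw [pow_add, pow_mul]; norm_num
        calc (Real.exp 1 * n / M) ^ M * (Real.exp 1 * n / m) ^ m * 2 ^ (2 * M + m) * (M : ℝ) ^ M *
              q ^ M
            = ((Real.exp 1 * n / M) ^ M * (M : ℝ) ^ M) * (2 : ℝ) ^ (2 * M + m) *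
                (Real.exp 1 * n / m) ^ m * q ^ M := by ring
          _ = (Real.exp 1 * n) ^ M * (4 ^ M * 2 ^ m) * (Real.exp 1 * n / m) ^ m * q ^ M := by
              rw [e1, e2]
          _ = (4 * Real.exp 1 * n * q) ^ M * (2 * Real.exp 1 * n / m) ^ m := by
              have e3 : (4 * Real.exp 1 * n * q) ^ M = 4 ^ M * (Real.exp 1 * n) ^ M * q ^ M := by
                rw [← mul_pow, ← mul_pow]; congr 1; ring
              have e4 : (2 * Real.exp 1 * n / m) ^ m = 2 ^ m * (Real.exp 1 * n / m) ^ m := by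
                rw [← mul_pow]; congr 1; ring
              rw [e3, e4]; ring

/-- The pattern factor: the product of the factorials of the numbers of children inside the
pattern. -/
def patFac {V : Type*} [DecidableEq V] (par : V → Option V) (E : V → Finset V) (v : V) : ℕ :=
  ∏ y ∈ insert v (E v), ((E v).filter (fun x => par x = some y)).card.factorial

theorem patFac_pos {V : Type*} [DecidableEq V] (par : V → Option V) (E : V → Finset V) (v : V) :
    0 < patFac par E v :=
  prod_pos (fun _ _ => Nat.factorial_pos _)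

theorem patFac_le {V : Type*} [DecidableEq V] (par : V → Option V) (E : V → Finset V) (v : V) :
    patFac par E v ≤ 2 ^ ((E v).card * (E v).card) := by
  have h1 : patFac par E v ∣
      (∑ y ∈ insert v (E v), ((E v).filter (fun x => par x = some y)).card).factorial :=
    Nat.prod_factorial_dvd_factorial_sum _ _
  have h2 : ∑ y ∈ insert v (E v), ((E v).filter (fun x => par x = some y)).card ≤ (E v).card := by
    rw [← card_biUnion]
    · apply card_le_card
      intro x hx
      rw [mem_biUnion] at hx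
      obtain ⟨y, _, hy⟩ := hx
      exact (mem_filter.1 hy).1
    · intro y _ y' _ hyy'
      rw [Function.onFun, Finset.disjoint_left]
      intro x hx hx'
      rw [mem_filter] at hx hx'
      exact hyy' (Option.some.inj (hx.2.symm.trans hx'.2))
  set k := (E v).card with hk
  calc patFac par E v
      ≤ (∑ y ∈ insert v (E v), ((E v).filter (fun x => par x = some y)).card).factorial :=
        Nat.le_of_dvd (Nat.factorial_pos _) h1
    _ ≤ k.factorial := Nat.factorial_le h2
    _ ≤ k ^ k := Nat.factorial_le_pow k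
    _ ≤ (2 ^ k) ^ k := Nat.pow_le_pow_left (Nat.lt_two_pow_self).le k
    _ = 2 ^ (k * k) := (pow_mul 2 k k).symm

section classes

variable {n : ℕ} {H : SimpleGraph (Fin n)} {q : ℝ}

/-- A class of vertices with `k`-edge patterns, depths in one residue class modulo `k + 1`
and pattern factor at least `2 ^ j` has at most `2 e n (4 e n q)^k / 2^j` members. -/
theorem class_card_le (hq : 0 ≤ q) (h : SubgraphsExpected n H q)
    (par : Fin n → Option (Fin n)) (d : Fin n → ℕ)
    (hd : ∀ u v, par u = some v → d u = d v + 1)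
    (hpar : ∀ x y, par x = some y → H.Adj x y)
    (E : Fin n → Finset (Fin n))
    (hE1 : ∀ v, ∀ x ∈ E v, par x = some v ∨ ∃ y ∈ E v, par x = some y)
    (hE2 : ∀ v, ∀ x ∈ E v, d v < d x ∧ d x ≤ d v + (E v).card)
    (C : Finset (Fin n)) (k r j : ℕ) (hk : 1 ≤ k) (hCk : ∀ v ∈ C, (E v).card = k)
    (hCr : ∀ v ∈ C, d v % (k + 1) = r) (hCj : ∀ v ∈ C, 2 ^ j ≤ patFac par E v) :
    (C.card : ℝ) * 2 ^ j ≤ 2 * Real.exp 1 * n * (4 * Real.exp 1 * n * q) ^ k := by
  rcases C.eq_empty_or_nonempty with rfl | hne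
  · simp only [card_empty, Nat.cast_zero, zero_mul]
    positivity
  obtain ⟨p, hp1, hp2, hp3, hp4⟩ := freq_family par d hd E hE1 hE2 C k r hk hCk hCr
  have hm1 : 1 ≤ C.card := hne.card_pos
  have hM1 : 1 ≤ C.card * k := Nat.mul_pos hm1 hk
  have hfc := freq_core hq h p d (fun x y hxy => hd x y (hp1 x y hxy))
    (fun x y hxy => hpar x y (hp1 x y hxy)) (C.card * k) C.card (by convert hp2)
    (by convert hp3) hM1 hm1
  have h5 : (2 ^ j) ^ C.card ≤ ∏ v ∈ C, patFac par E v := by
    rw [← prod_const]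
    exact prod_le_prod (fun _ _ => Nat.zero_le _) hCj
  have h6 : ((2 : ℝ) ^ j) ^ C.card ≤
      ((4 * Real.exp 1 * n * q) ^ k * (2 * Real.exp 1 * n / C.card)) ^ C.card := by
    calc ((2 : ℝ) ^ j) ^ C.card = (((2 ^ j) ^ C.card : ℕ) : ℝ) := by push_cast; ring
      _ ≤ ((∏ v ∈ C, patFac par E v : ℕ) : ℝ) := by exact_mod_cast h5
      _ ≤ ((∏ y, ((univ.filter (fun x => p x = some y)).card.factorial) : ℕ) : ℝ) := by
          have hp4' : ∏ v ∈ C, patFac par E v ≤
              ∏ y, ((univ.filter (fun x => p x = some y)).card.factorial) := by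
            simp only [patFac]
            convert hp4
          exact_mod_cast hp4'
      _ ≤ (4 * Real.exp 1 * n * q) ^ (C.card * k) * (2 * Real.exp 1 * n / C.card) ^ C.card := hfc
      _ = ((4 * Real.exp 1 * n * q) ^ k * (2 * Real.exp 1 * n / C.card)) ^ C.card := by
          rw [mul_pow ((4 * Real.exp 1 * n * q) ^ k) _ C.card, ← pow_mul, mul_comm k]
  have hmpos : (0 : ℝ) < C.card := by exact_mod_cast hm1
  have hnn : (0 : ℝ) ≤ (4 * Real.exp 1 * n * q) ^ k * (2 * Real.exp 1 * n / C.card) := by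
    positivity
  have h7 : (2 : ℝ) ^ j ≤ (4 * Real.exp 1 * n * q) ^ k * (2 * Real.exp 1 * n / C.card) :=
    (pow_le_pow_iff_left₀ (by positivity) hnn (by omega)).1 h6
  calc (C.card : ℝ) * 2 ^ j
      ≤ (C.card : ℝ) * ((4 * Real.exp 1 * n * q) ^ k * (2 * Real.exp 1 * n / C.card)) :=
        mul_le_mul_of_nonneg_left h7 hmpos.le
    _ = 2 * Real.exp 1 * n * (4 * Real.exp 1 * n * q) ^ k := by
        field_simp

/-- The total weight of such a class. -/
theorem class_sum_le (hq : 0 ≤ q) (h : SubgraphsExpected n H q)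
    (par : Fin n → Option (Fin n)) (d : Fin n → ℕ)
    (hd : ∀ u v, par u = some v → d u = d v + 1)
    (hpar : ∀ x y, par x = some y → H.Adj x y)
    (E : Fin n → Finset (Fin n))
    (hE1 : ∀ v, ∀ x ∈ E v, par x = some v ∨ ∃ y ∈ E v, par x = some y)
    (hE2 : ∀ v, ∀ x ∈ E v, d v < d x ∧ d x ≤ d v + (E v).card)
    (β : ℝ) (hβ : 0 < β) (P : Fin n → ℝ)
    (hP : ∀ v, P v = β ^ (E v).card * (patFac par E v : ℝ))
    (C : Finset (Fin n)) (k r j : ℕ) (hk : 1 ≤ k) (hCk : ∀ v ∈ C, (E v).card = k)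
    (hCr : ∀ v ∈ C, d v % (k + 1) = r) (hCj : ∀ v ∈ C, 2 ^ j ≤ patFac par E v)
    (hCj2 : ∀ v ∈ C, patFac par E v < 2 ^ (j + 1)) :
    ∑ v ∈ C, P v ≤ 4 * Real.exp 1 * n * (4 * Real.exp 1 * n * q * β) ^ k := by
  have h1 := class_card_le hq h par d hd hpar E hE1 hE2 C k r j hk hCk hCr hCj
  have h2 : ∀ v ∈ C, P v ≤ β ^ k * 2 ^ (j + 1) := by
    intro v hv
    rw [hP v, hCk v hv]
    have : (patFac par E v : ℝ) ≤ 2 ^ (j + 1) := by exact_mod_cast (hCj2 v hv).le
    exact mul_le_mul_of_nonneg_left this (by positivity)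
  calc ∑ v ∈ C, P v ≤ ∑ _v ∈ C, β ^ k * 2 ^ (j + 1) := sum_le_sum h2
    _ = 2 * β ^ k * ((C.card : ℝ) * 2 ^ j) := by
        rw [sum_const, nsmul_eq_mul, pow_succ]; ring
    _ ≤ 2 * β ^ k * (2 * Real.exp 1 * n * (4 * Real.exp 1 * n * q) ^ k) :=
        mul_le_mul_of_nonneg_left h1 (by positivity)
    _ = 4 * Real.exp 1 * n * (4 * Real.exp 1 * n * q * β) ^ k := by
        rw [mul_pow (4 * Real.exp 1 * n * q) β]; ring

theorem poly_le_eight_pow (k : ℕ) : (((k * k + 1) * (k + 1) : ℕ) : ℝ) ≤ 8 ^ k := by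
  have h1 : k + 1 ≤ 2 ^ k := Nat.lt_two_pow_self
  have h2 : k * k + 1 ≤ 4 ^ k := by
    calc k * k + 1 ≤ (k + 1) * (k + 1) := by nlinarith
      _ ≤ 2 ^ k * 2 ^ k := Nat.mul_le_mul h1 h1
      _ = 4 ^ k := by rw [← mul_pow]; norm_num
  have h3 : (k * k + 1) * (k + 1) ≤ 8 ^ k := by
    calc (k * k + 1) * (k + 1) ≤ 4 ^ k * 2 ^ k := Nat.mul_le_mul h2 h1
      _ = 8 ^ k := by rw [← mul_pow]; norm_num
  exact_mod_cast h3

/-- The total weight of all vertices whose pattern has exactly `k ≥ 1` edges. -/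
theorem level_sum_le (hq : 0 ≤ q) (h : SubgraphsExpected n H q)
    (par : Fin n → Option (Fin n)) (d : Fin n → ℕ)
    (hd : ∀ u v, par u = some v → d u = d v + 1)
    (hpar : ∀ x y, par x = some y → H.Adj x y)
    (E : Fin n → Finset (Fin n))
    (hE1 : ∀ v, ∀ x ∈ E v, par x = some v ∨ ∃ y ∈ E v, par x = some y)
    (hE2 : ∀ v, ∀ x ∈ E v, d v < d x ∧ d x ≤ d v + (E v).card)
    (β : ℝ) (hβ : 0 < β) (P : Fin n → ℝ)
    (hP : ∀ v, P v = β ^ (E v).card * (patFac par E v : ℝ))
    (hβq : 32 * Real.exp 1 * n * q * β ≤ 1 / 2) (k : ℕ) (hk : 1 ≤ k) :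
    ∑ v ∈ univ.filter (fun v => (E v).card = k), P v ≤ 4 * Real.exp 1 * n * (1 / 2) ^ k := by
  set S := univ.filter (fun v : Fin n => (E v).card = k) with hS
  have hmaps : ∀ v ∈ S, (Nat.log 2 (patFac par E v), d v % (k + 1)) ∈
      range (k * k + 1) ×ˢ range (k + 1) := by
    intro v hv
    rw [hS, mem_filter] at hv
    rw [mem_product, mem_range, mem_range]
    refine ⟨?_, Nat.mod_lt _ (by omega)⟩
    show Nat.log 2 (patFac par E v) < k * k + 1
    apply Nat.log_lt_of_lt_pow (patFac_pos par E v).ne'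
    have := patFac_le par E v
    rw [hv.2] at this
    exact lt_of_le_of_lt this (Nat.pow_lt_pow_right (by norm_num) (by omega))
  rw [← sum_fiberwise_of_maps_to hmaps P]
  have hx0 : 0 ≤ 4 * Real.exp 1 * n * q * β := by positivity
  calc ∑ jr ∈ range (k * k + 1) ×ˢ range (k + 1),
        ∑ v ∈ S.filter (fun v => (Nat.log 2 (patFac par E v), d v % (k + 1)) = jr), P v
      ≤ ∑ _jr ∈ range (k * k + 1) ×ˢ range (k + 1),
          4 * Real.exp 1 * n * (4 * Real.exp 1 * n * q * β) ^ k := by
        apply sum_le_sum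
        rintro ⟨j, r⟩ _
        apply class_sum_le hq h par d hd hpar E hE1 hE2 β hβ P hP _ k r j hk
        · intro v hv
          rw [mem_filter, hS, mem_filter] at hv
          exact hv.1.2
        · intro v hv
          rw [mem_filter] at hv
          exact (Prod.mk.inj hv.2).2
        · intro v hv
          rw [mem_filter] at hv
          rw [← (Prod.mk.inj hv.2).1]
          exact Nat.pow_log_le_self 2 (patFac_pos par E v).ne'
        · intro v hv
          rw [mem_filter] at hv
          rw [← (Prod.mk.inj hv.2).1]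
          exact Nat.lt_pow_succ_log_self (by norm_num) _
    _ = (((k * k + 1) * (k + 1) : ℕ) : ℝ) *
          (4 * Real.exp 1 * n * (4 * Real.exp 1 * n * q * β) ^ k) := by
        rw [sum_const, card_product, card_range, card_range, nsmul_eq_mul]
    _ ≤ 8 ^ k * (4 * Real.exp 1 * n * (4 * Real.exp 1 * n * q * β) ^ k) :=
        mul_le_mul_of_nonneg_right (poly_le_eight_pow k) (by positivity)
    _ = 4 * Real.exp 1 * n * (32 * Real.exp 1 * n * q * β) ^ k := by
        have : (32 * Real.exp 1 * n * q * β) ^ k = 8 ^ k * (4 * Real.exp 1 * n * q * β) ^ k := by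
          rw [← mul_pow]; congr 1; ring
        rw [this]; ring
    _ ≤ 4 * Real.exp 1 * n * (1 / 2) ^ k := by
        apply mul_le_mul_of_nonneg_left _ (by positivity)
        exact pow_le_pow_left₀ (by positivity) hβq k

/-- **Total pattern weight.** -/
theorem sum_P_le (hq : 0 ≤ q) (h : SubgraphsExpected n H q)
    (par : Fin n → Option (Fin n)) (d : Fin n → ℕ)
    (hd : ∀ u v, par u = some v → d u = d v + 1)
    (hpar : ∀ x y, par x = some y → H.Adj x y)
    (E : Fin n → Finset (Fin n))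
    (hE1 : ∀ v, ∀ x ∈ E v, par x = some v ∨ ∃ y ∈ E v, par x = some y)
    (hE2 : ∀ v, ∀ x ∈ E v, d v < d x ∧ d x ≤ d v + (E v).card)
    (β : ℝ) (hβ : 0 < β) (P : Fin n → ℝ)
    (hP : ∀ v, P v = β ^ (E v).card * (patFac par E v : ℝ))
    (hβq : 32 * Real.exp 1 * n * q * β ≤ 1 / 2) :
    ∑ v, P v ≤ (1 + 4 * Real.exp 1) * n := by
  have hmaps : ∀ v ∈ (univ : Finset (Fin n)), (E v).card ∈ range (n + 1) := by
    intro v _
    rw [mem_range]
    have := card_le_univ (E v)
    rw [Fintype.card_fin] at this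
    omega
  rw [← sum_fiberwise_of_maps_to hmaps P, sum_range_succ']
  have h0 : ∑ v ∈ univ.filter (fun v => (E v).card = 0), P v ≤ n := by
    have h1 : ∀ v ∈ univ.filter (fun v : Fin n => (E v).card = 0), P v = 1 := by
      intro v hv
      rw [mem_filter] at hv
      have hE : E v = ∅ := card_eq_zero.1 hv.2
      rw [hP v, patFac, hE]
      simp
    rw [sum_congr rfl h1, sum_const, nsmul_eq_mul, mul_one]
    have := card_le_univ (univ.filter (fun v : Fin n => (E v).card = 0))
    rw [Fintype.card_fin] at this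
    exact_mod_cast this
  have h1 : ∑ k ∈ range n, ∑ v ∈ univ.filter (fun v => (E v).card = k + 1), P v ≤
      4 * Real.exp 1 * n := by
    calc ∑ k ∈ range n, ∑ v ∈ univ.filter (fun v => (E v).card = k + 1), P v
        ≤ ∑ k ∈ range n, 4 * Real.exp 1 * n * (1 / 2) ^ (k + 1) := by
          apply sum_le_sum
          intro k _
          exact level_sum_le hq h par d hd hpar E hE1 hE2 β hβ P hP hβq (k + 1) (by omega)
      _ = 2 * Real.exp 1 * n * ∑ k ∈ range n, (1 / (2 : ℝ)) ^ k := by
          rw [mul_sum]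
          apply sum_congr rfl
          intro k _
          rw [pow_succ]; ring
      _ ≤ 2 * Real.exp 1 * n * 2 :=
          mul_le_mul_of_nonneg_left (sum_geometric_two_le n) (by positivity)
      _ = 4 * Real.exp 1 * n := by ring
  linarith

end classes

end Vale.Agent.KK
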