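import Vale.Agent.KK.FH.Freq
import Vale.Agent.Lib.P064.helper26.Patterns
import Vale.Agent.Lib.P064.helper36.CopyCount
import Vale.Agent.Lib.P064.helper35.Key3

/-!
# Forest hosts: the copy-count inequality with a universal constant
-/

namespace Vale.Agent.KK

open SimpleGraph Finset
open Vale.Agent.Lib.P064

theorem fh_const_le : 10080000 * Real.exp 1 ^ 2 ≤ (100000000 : ℝ) := by
  have h1 : Real.exp 1 < 2.7182818286 := Real.exp_one_lt_d9
  have h0 : (0 : ℝ) < Real.exp 1 := Real.exp_pos 1
  have h2 : Real.exp 1 ^ 2 < 2.7182818286 ^ 2 := by gcongr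
  norm_num at h2 ⊢
  linarith

/-- The labelled inequality for forest hosts and patterns without isolated vertices. -/
theorem fh_labelled_main {n : ℕ} {H : SimpleGraph (Fin n)} {q : ℝ} (hH : H.IsAcyclic)
    (hq0 : 0 ≤ q) (h : SubgraphsExpected n H q) (W : Type) [Fintype W]
    (F : SimpleGraph W) (hiso : ∀ w, ∃ w', F.Adj w w') :
    (H.labelledCopyCount F : ℝ) ≤
      (n.descFactorial (Fintype.card W) : ℝ) * (100000000 * q) ^ F.edgeSet.ncard := by
  classical
  by_cases hw : Fintype.card W ≤ n
  swap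
  · rw [labelled_eq_zero_of_card_lt H F (not_le.1 hw)]
    simp only [Nat.cast_zero]
    positivity
  rw [labelledCopyCount_eq_natCard]
  by_cases hemp : IsEmpty (Copy F H)
  · rw [Nat.card_of_isEmpty]
    simp only [Nat.cast_zero]
    positivity
  rw [not_isEmpty_iff] at hemp
  obtain ⟨φ0⟩ := hemp
  have hF : F.IsAcyclic := hH.comap φ0.toHom φ0.injective
  rcases isEmpty_or_nonempty W with hW | hW
  · have he : F.edgeSet = ∅ := by
      ext e
      induction e using Sym2.ind with
      | _ a b => exact isEmptyElim a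
    have hsub : Subsingleton (Copy F H) :=
      ⟨fun a b => DFunLike.ext _ _ (fun w => isEmptyElim w)⟩
    have h1 : Nat.card (Copy F H) ≤ 1 := Finite.card_le_one_iff_subsingleton.2 hsub
    rw [he, Fintype.card_eq_zero]
    simp only [Nat.descFactorial_zero, Nat.cast_one, Set.ncard_empty, pow_zero, mul_one]
    exact_mod_cast h1
  obtain ⟨w0⟩ := hW
  obtain ⟨w1, hw01⟩ := hiso w0
  have hadj : H.Adj (φ0 w0) (φ0 w1) := φ0.toHom.map_adj hw01
  have hqpos : 0 < q := by
    by_contra hq
    have hq' : q = 0 := le_antisymm (not_lt.1 hq) hq0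
    have h1 := hyp_spanning h H le_rfl
    have hne : H.edgeSet.ncard ≠ 0 := by
      rw [Ne, Set.ncard_eq_zero (Set.toFinite _)]
      intro h0
      have : s(φ0 w0, φ0 w1) ∈ H.edgeSet := hadj
      rw [h0] at this
      exact this
    rw [hq', zero_pow hne, mul_zero] at h1
    linarith
  have hnpos : 0 < n := Fin.pos (φ0 w0)
  have hnR : (0 : ℝ) < n := by exact_mod_cast hnpos
  obtain ⟨par, d, hd, hadjiff⟩ := exists_rooting H hH
  have hpar : ∀ x y, par x = some y → H.Adj x y := fun x y hxy => (hadjiff x y).2 (Or.inl hxy)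
  set a : ℝ := 1 / (180000 * (n * q)) with ha_def
  have ha : 0 < a := by positivity
  set β : ℝ := 1024 * a with hβ_def
  have hβ : 0 < β := by positivity
  obtain ⟨P, E, hP2, hP3, hE1, hE2⟩ := exists_patterns par d hd β hβ
  have hβq : 32 * Real.exp 1 * n * q * β ≤ 1 / 2 := by
    have e1 : 32 * Real.exp 1 * n * q * β = 32768 * Real.exp 1 / 180000 := by
      rw [hβ_def, ha_def]
      field_simp
      ring
    rw [e1]
    have := Real.exp_one_lt_d9
    linarith
  have hsumP : ∑ v, P v ≤ (1 + 4 * Real.exp 1) * n :=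
    sum_P_le hq0 h par d hd hpar E hE1 hE2 β hβ P (fun v => by rw [hP3 v]; rfl) hβq
  set A0 := Real.exp (1 / (6 * a)) with hA0
  have hA0_1 : 1 ≤ A0 := Real.one_le_exp (by positivity)
  have hA0pos : 0 < A0 := Real.exp_pos _
  have hP1 : ∀ v, 1 ≤ P v := fun v => by simpa using hP2 v ∅ (by simp)
  have hP0 : ∀ v, 0 ≤ P v := fun v => le_trans zero_le_one (hP1 v)
  set Wt : Fin n → ℝ := fun v => 2 + P v / A0 with hWt
  have hW0 : ∀ v, 0 ≤ Wt v := fun v => by
    have := div_nonneg (hP0 v) hA0pos.le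
    simp only [hWt]
    linarith
  have hsup : ∀ v, ∑ A ∈ (univ.filter (fun u => par u = some v)).powerset,
      (A.card.factorial : ℝ) * a ^ A.card * ∏ u ∈ A, Wt u ≤ Wt v := by
    intro v
    apply key3 _ a ha P Wt (P v)
    · intro i _; exact hP1 i
    · intro i _; exact hW0 i
    · intro i _; exact le_rfl
    · intro T hT
      apply hP2 v T
      intro u hu
      exact (mem_filter.1 (hT hu)).2
  obtain ⟨c, hc, hcnt⟩ :=
    card_copy_le_of_supersolution H par d hd hadjiff a ha Wt hW0 hsup W F hF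
  have hB0 : 0 ≤ ∑ v, Wt v := sum_nonneg (fun v _ => hW0 v)
  have hB : ∑ v, Wt v ≤ 14 * n := by
    have e1 : ∑ v, Wt v = 2 * n + (∑ v, P v) / A0 := by
      simp only [hWt]
      rw [sum_add_distrib, sum_const, card_univ, Fintype.card_fin, nsmul_eq_mul, sum_div]
      ring
    have h2 : (∑ v, P v) / A0 ≤ ∑ v, P v :=
      div_le_self (sum_nonneg (fun v _ => hP0 v)) hA0_1
    have h3 := Real.exp_one_lt_d9
    rw [e1]
    nlinarith
  have hcard2 := card_le_two_mul_edges F hiso
  set e := F.edgeSet.ncard with he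
  have hce : c ≤ e := by omega
  have hWc : Fintype.card W = c + e := hc.symm
  have hconv := pow_le_exp_pow_mul_descFactorial n (Fintype.card W) hw
  have hexp1 : 1 ≤ Real.exp 1 := Real.one_le_exp (by norm_num)
  have h1a : 1 / a = 180000 * (n * q) := by
    rw [ha_def]
    field_simp
  have hD0 : (0 : ℝ) ≤ (n.descFactorial (Fintype.card W) : ℝ) := Nat.cast_nonneg _
  calc (Nat.card (Copy F H) : ℝ)
      ≤ 2 ^ Fintype.card W * (1 / a) ^ e * (∑ v, Wt v) ^ c := hcnt
    _ ≤ 2 ^ (2 * e) * (180000 * (n * q)) ^ e * (14 * n) ^ c := by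
        rw [h1a]
        gcongr
        norm_num
    _ ≤ 2 ^ (2 * e) * (180000 * (n * q)) ^ e * (14 ^ e * (n : ℝ) ^ c) := by
        rw [mul_pow 14 (n : ℝ) c]
        gcongr
        norm_num
    _ = (10080000 * q) ^ e * (n : ℝ) ^ (Fintype.card W) := by
        have e1 : (2 : ℝ) ^ (2 * e) * (180000 * (n * q)) ^ e * (14 ^ e * (n : ℝ) ^ c) =
            (2 ^ 2 * (180000 * (n * q)) * 14) ^ e * (n : ℝ) ^ c := by
          rw [mul_pow (2 ^ 2 * (180000 * ((n : ℝ) * q))) 14 e, mul_pow (2 ^ 2) _ e, ← pow_mul]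
          ring
        have e2 : (10080000 * q) ^ e * (n : ℝ) ^ (Fintype.card W) =
            ((10080000 * q) * n) ^ e * (n : ℝ) ^ c := by
          rw [hWc, pow_add, mul_pow]
          ring
        rw [e1, e2]
        congr 2
        ring
    _ ≤ (10080000 * q) ^ e *
          (Real.exp 1 ^ (Fintype.card W) * (n.descFactorial (Fintype.card W) : ℝ)) := by
        gcongr
    _ ≤ (10080000 * q) ^ e *
          (Real.exp 1 ^ (2 * e) * (n.descFactorial (Fintype.card W) : ℝ)) := by
        gcongr
    _ = (n.descFactorial (Fintype.card W) : ℝ) * (10080000 * Real.exp 1 ^ 2 * q) ^ e := by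
        rw [pow_mul, mul_pow (10080000 * Real.exp 1 ^ 2) q e, mul_pow 10080000 (Real.exp 1 ^ 2) e,
          mul_pow 10080000 q e]
        ring
    _ ≤ (n.descFactorial (Fintype.card W) : ℝ) * (100000000 * q) ^ e := by
        gcongr
        exact fh_const_le

/-- **Forest hosts.** If `H` is a forest on `[n]` all of whose subgraphs have expected count at
least one at density `q`, then `N(H,F) ≤ N(K_n,F) (10^8 q)^{e(F)}` for every graph `F`. -/
theorem forestHost_copyCount_le {n : ℕ} {H : SimpleGraph (Fin n)} {q : ℝ} (hH : H.IsAcyclic)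
    (hq0 : 0 ≤ q) (h : SubgraphsExpected n H q) (W : Type) [Fintype W] (F : SimpleGraph W) :
    (H.copyCount F : ℝ) ≤ ((⊤ : SimpleGraph (Fin n)).copyCount F : ℝ) *
      (100000000 * q) ^ F.edgeSet.ncard := by
  classical
  apply copyCount_le_of_labelled
  rw [labelledCopyCount_top, Fintype.card_fin]
  have key := labelled_of_support H F ((100000000 * q) ^ F.edgeSet.ncard) ?_
  · rw [Fintype.card_fin] at key; exact key
  rw [Fintype.card_fin, ← ncard_edgeSet_induce_support F]
  exact fh_labelled_main hH hq0 h F.support (F.induce F.support) (induce_support_no_isolated F)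

/-- The same with the density capped at one. -/
theorem forestHost_copyCount_le_min {n : ℕ} {H : SimpleGraph (Fin n)} {q : ℝ}
    (hH : H.IsAcyclic) (hq0 : 0 ≤ q) (h : SubgraphsExpected n H q) (W : Type) [Fintype W]
    (F : SimpleGraph W) :
    (H.copyCount F : ℝ) ≤ ((⊤ : SimpleGraph (Fin n)).copyCount F : ℝ) *
      (min 1 (100000000 * q)) ^ F.edgeSet.ncard := by
  by_cases hq : 100000000 * q ≤ 1
  · rw [min_eq_right hq]
    exact forestHost_copyCount_le hH hq0 h W F
  · rw [not_le] at hq
    rw [min_eq_left hq.le, one_pow, mul_one]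
    exact copyCount_le_top H F

end Vale.Agent.KK
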