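import Vale.Agent.KK.FH.Main

/-!
# Forest hosts: the fractional expectation threshold is within a constant of the expectation
threshold
-/

namespace Vale.Agent.KK

open SimpleGraph Finset

theorem one_le_copyCount_top_coe {n : ℕ} {H : SimpleGraph (Fin n)} (H' : H.Subgraph) :
    1 ≤ (⊤ : SimpleGraph (Fin n)).copyCount H'.coe := by
  rw [Nat.one_le_iff_ne_zero, ← Nat.pos_iff_ne_zero, copyCount_pos]
  exact ⟨(copyTopEquiv H'.coe).symm ⟨Subtype.val, Subtype.val_injective⟩⟩

theorem ncard_edgeSet_coe {V : Type*} {H : SimpleGraph V} (H' : H.Subgraph) :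
    H'.coe.edgeSet.ncard = H'.edgeSet.ncard := by
  rw [← Subgraph.image_coe_edgeSet_coe,
    Set.ncard_image_of_injective _ (Sym2.map.injective Subtype.val_injective)]

/-- If `p` is admissible for the expectation threshold (all subgraphs have expected count at
least `1/2`), then `min 1 (2 * 10^8 * p)` is admissible for the fractional expectation
threshold, for forest hosts. -/
theorem forestHost_admissible {n : ℕ} (H : SimpleGraph (Fin n)) (hH : H.IsAcyclic) (p : ℝ)
    (hp0 : 0 ≤ p)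
    (hp : ∀ H' : H.Subgraph, (1 : ℝ) / 2 ≤
      ((⊤ : SimpleGraph (Fin n)).copyCount H'.coe : ℝ) * p ^ H'.edgeSet.ncard)
    (H' : H.Subgraph) :
    (H.copyCount H'.coe : ℝ) / 2 ≤
      ((⊤ : SimpleGraph (Fin n)).copyCount H'.coe : ℝ) *
        (min 1 (200000000 * p)) ^ H'.edgeSet.ncard := by
  classical
  have hyp : SubgraphsExpected n H (2 * p) := by
    intro K
    have h1 : (1 : ℝ) ≤ ((⊤ : SimpleGraph (Fin n)).copyCount K.coe : ℝ) := by
      exact_mod_cast one_le_copyCount_top_coe K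
    rcases Nat.eq_zero_or_pos K.edgeSet.ncard with h0 | hpos
    · rw [h0, pow_zero, mul_one]
      exact h1
    · have h2 := hp K
      have h3 : (2 : ℝ) ≤ 2 ^ K.edgeSet.ncard := by
        calc (2 : ℝ) = 2 ^ 1 := (pow_one 2).symm
          _ ≤ 2 ^ K.edgeSet.ncard := pow_le_pow_right₀ (by norm_num) hpos
      have h4 : 0 ≤ ((⊤ : SimpleGraph (Fin n)).copyCount K.coe : ℝ) * p ^ K.edgeSet.ncard := by
        positivity
      rw [mul_pow]
      calc (1 : ℝ) ≤ 2 * (((⊤ : SimpleGraph (Fin n)).copyCount K.coe : ℝ) * p ^ K.edgeSet.ncard) := by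
            linarith
        _ ≤ 2 ^ K.edgeSet.ncard *
              (((⊤ : SimpleGraph (Fin n)).copyCount K.coe : ℝ) * p ^ K.edgeSet.ncard) :=
            mul_le_mul_of_nonneg_right h3 h4
        _ = ((⊤ : SimpleGraph (Fin n)).copyCount K.coe : ℝ) *
              (2 ^ K.edgeSet.ncard * p ^ K.edgeSet.ncard) := by ring
  have main := forestHost_copyCount_le_min hH (by positivity) hyp H'.verts H'.coe
  rw [ncard_edgeSet_coe] at main
  have e1 : (100000000 : ℝ) * (2 * p) = 200000000 * p := by ring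
  rw [e1] at main
  have h0 : (0 : ℝ) ≤ (H.copyCount H'.coe : ℝ) := Nat.cast_nonneg _
  linarith

/-- **Thresholds for forest hosts.** The fractional expectation threshold of a forest `H` on
`[n]` is at most `2 * 10^8` times its expectation threshold. -/
theorem forestHost_thresholds {n : ℕ} (H : SimpleGraph (Fin n)) (hH : H.IsAcyclic) :
    sInf {p : ℝ | 0 ≤ p ∧ p ≤ 1 ∧ ∀ H' : H.Subgraph,
        (H.copyCount H'.coe : ℝ) / 2 ≤
          ((⊤ : SimpleGraph (Fin n)).copyCount H'.coe : ℝ) * p ^ H'.edgeSet.ncard} ≤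
      200000000 * sInf {p : ℝ | 0 ≤ p ∧ p ≤ 1 ∧ ∀ H' : H.Subgraph,
        (1 : ℝ) / 2 ≤
          ((⊤ : SimpleGraph (Fin n)).copyCount H'.coe : ℝ) * p ^ H'.edgeSet.ncard} := by
  set S2 : Set ℝ := {p : ℝ | 0 ≤ p ∧ p ≤ 1 ∧ ∀ H' : H.Subgraph,
        (H.copyCount H'.coe : ℝ) / 2 ≤
          ((⊤ : SimpleGraph (Fin n)).copyCount H'.coe : ℝ) * p ^ H'.edgeSet.ncard} with hS2
  set S1 : Set ℝ := {p : ℝ | 0 ≤ p ∧ p ≤ 1 ∧ ∀ H' : H.Subgraph,
        (1 : ℝ) / 2 ≤
          ((⊤ : SimpleGraph (Fin n)).copyCount H'.coe : ℝ) * p ^ H'.edgeSet.ncard} with hS1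
  have hbdd2 : BddBelow S2 := ⟨0, fun p hp => hp.1⟩
  have hne1 : S1.Nonempty := by
    refine ⟨1, zero_le_one, le_rfl, fun H' => ?_⟩
    have h1 : (1 : ℝ) ≤ ((⊤ : SimpleGraph (Fin n)).copyCount H'.coe : ℝ) := by
      exact_mod_cast one_le_copyCount_top_coe H'
    rw [one_pow, mul_one]
    linarith
  have key : ∀ p ∈ S1, min 1 (200000000 * p) ∈ S2 := by
    intro p hp
    refine ⟨le_min zero_le_one (by have := hp.1; positivity), min_le_left _ _, fun H' => ?_⟩
    exact forestHost_admissible H hH p hp.1 hp.2.2 H'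
  have h1 : ∀ p ∈ S1, sInf S2 / 200000000 ≤ p := by
    intro p hp
    have h2 := csInf_le hbdd2 (key p hp)
    have h3 := min_le_right 1 (200000000 * p)
    linarith
  have h2 := le_csInf hne1 h1
  linarith

end Vale.Agent.KK
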